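import Vale.Agent.P092.CL.LtO
import Vale.Agent.P092.H370.Cg3

/-!
P092, TEAM P, stage CL-O (helper759): the fields `flag`, `ex1`, `ex2`, `fix1`, `fix2`, `z_of` (and
the actions of the letters on the base objects) of `CL.Geo` for the orthogonal letters `CL.ltO`.
-/

set_option linter.all false

open Matrix Module Set Topology Filter MeasureTheory

namespace Vale.Agent.P092.H759.Clo

open Vale.Agent.P092.H303 (FormGroup Idx hyp torF torF_mem dgF hypAt_l hypAt_r)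
open Vale.Agent.P092.H714.Cl
open Vale.Agent.P092.H714.Sg (Fm)
open Vale.Agent.P092.H370.Po hiding trans_sing exists_extend exists_inc_ge exists_adj sing_sup_span
  trans_flags exists_prod con2 trans_SGr con exists_step exists_above trans_pair_col trans_flag
  exists_iso_prod ort_comm exists_closer
open Vale.Agent.P092.H370.Fo
open Vale.Agent.P092.H370.Cg
open Vale.Agent.P092.H631.P2 (iL iL_inj)
open Vale.Agent.P092.CL (OF EUF b1O b2O u1O u2O e0 ep ltO scal)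

section base

variable {k : Type} [NontriviallyNormedField k] {ι : Type} [Fintype ι] [DecidableEq ι]
  {s : ℕ} {J₀ : Matrix ι ι k}

theorem conj_fixO {α S : Type} [Group S] [MulAction S α] {g h : S} {m l : α}
    (h1 : g • m = l) (h2 : h • m = m) : (g * h * g⁻¹) • l = l := by
  rw [← h1, mul_smul, inv_smul_smul, mul_smul, h2]

theorem p0_in_m0O : Inc (CL.p0 : SGr (RingHom.id k) (hyp (s + 2) 1 J₀) 1)
    (CL.m0 : SGr (RingHom.id k) (hyp (s + 2) 1 J₀) (s + 2)) := by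
  rw [p0_eq, m0_eq]
  exact bs_inc (by omega)

/-- `u1` fixes every singular space which contains `e_0` or `e_1` -/
theorem u1O_fix (h : OF J₀) (t : k) {j : ℕ} {X : SGr (RingHom.id k) (hyp (s + 2) 1 J₀) j}
    (hX : ep k ι 0 ∈ X.S ∨ ep k ι 1 ∈ X.S) : u1O h s t • X = X := by
  change (u1O h s t).1 • X = X
  rw [smul_eq_iff_eq_inv_smul]
  refine SGr.ext ?_
  rw [smul_S]
  change X.S = act (ei (RingHom.id k) 1 (hyp (s + 2) 1 J₀) (ep k ι 0) (t • ep k ι 1) 0)⁻¹⁻¹ X.S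
  rw [inv_inv, act_iso (h.fm s) (CL.hf_ep 0 0) (CL.hf_ep 1 1) (CL.hf_ep 0 1) t X.sing hX]

/-- `u2` fixes the vectors orthogonal to `e_1` and to the anisotropic part -/
theorem u2O_fix (h : OF J₀) (v : ι → k) {j : ℕ} {X : SGr (RingHom.id k) (hyp (s + 2) 1 J₀) j}
    (hX : ∀ x ∈ X.S, hf (RingHom.id k) (hyp (s + 2) 1 J₀) x (ep k ι 1) = 0 ∧
      hf (RingHom.id k) (hyp (s + 2) 1 J₀) x (e0 s v) = 0) : u2O h s v • X = X := by
  change (u2O h s v).1 • X = X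
  refine smul_eq_of_fix fun x hx => ?_
  obtain ⟨h1, h2⟩ := hX x hx
  change x ᵥ* (ei (RingHom.id k) 1 (hyp (s + 2) 1 J₀) (ep k ι 1) (e0 s v)
    (-(2⁻¹ * (v ⬝ᵥ (J₀ *ᵥ v))))).1 = x
  rw [vecMul_ei (h.fm s) (h.ep2 s v), h1, h2]
  simp

theorem u2O_cs (h : OF J₀) (v : ι → k) {l : ℕ} {A : Fin l → Idx (s + 2) ι}
    {hA : Function.Injective A} {h0 : ∀ a b, hyp (s + 2) (1 : k) J₀ (A a) (A b) = 0}
    (h1 : ∀ a, A a ≠ .inl (.inr 1)) (h2 : ∀ a i, A a ≠ .inr i) :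
    u2O h s v • cs (RingHom.id k) (hyp (s + 2) 1 J₀) A hA h0 =
      cs (RingHom.id k) (hyp (s + 2) 1 J₀) A hA h0 := by
  refine u2O_fix h v fun x hx => ⟨?_, ?_⟩
  · rw [mem_cs] at hx
    refine hf_supp fun a b ha hb => ?_
    have hb' : b = .inl (.inl 1) := by
      by_contra hne
      exact hb (Pi.single_eq_of_ne hne _)
    rw [hb', (hypAt_r (s + 2) 1 J₀ 1).col, if_neg]
    intro h3
    rw [h3] at ha
    exact ha (hx _ h1)
  · rw [mem_cs] at hx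
    refine hf_supp fun a b ha hb => ?_
    rcases b with b | b
    · exact absurd rfl hb
    · rcases a with (a | a) | a
      · rw [(hypAt_l (s + 2) 1 J₀ a).row, if_neg (by simp)]
      · rw [(hypAt_r (s + 2) 1 J₀ a).row, if_neg (by simp)]
      · exact absurd (hx _ fun c => h2 c a) ha

theorem b1O_cs (h : OF J₀) {a : k} (ha : a ≠ 0) {l : ℕ} {A : Fin l → Idx (s + 2) ι}
    {hA : Function.Injective A} {h0 : ∀ a b, hyp (s + 2) (1 : k) J₀ (A a) (A b) = 0} :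
    b1O h s ha • cs (RingHom.id k) (hyp (s + 2) 1 J₀) A hA h0 =
      cs (RingHom.id k) (hyp (s + 2) 1 J₀) A hA h0 := by
  change (b1O h s ha).1 • cs (RingHom.id k) (hyp (s + 2) 1 J₀) A hA h0 = _
  exact smul_cs_diag (d := dgF (s + 2) ι (a ^ 2) (Pi.single 0 1)) rfl

theorem b2O_cs (h : OF J₀) {a : k} (ha : a ≠ 0) {l : ℕ} {A : Fin l → Idx (s + 2) ι}
    {hA : Function.Injective A} {h0 : ∀ a b, hyp (s + 2) (1 : k) J₀ (A a) (A b) = 0} :
    b2O h s ha • cs (RingHom.id k) (hyp (s + 2) 1 J₀) A hA h0 =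
      cs (RingHom.id k) (hyp (s + 2) 1 J₀) A hA h0 := by
  change (b2O h s ha).1 • cs (RingHom.id k) (hyp (s + 2) 1 J₀) A hA h0 = _
  exact smul_cs_diag (d := dgF (s + 2) ι (a ^ 2) fun _ => 1) rfl

/-- **flag** -/
theorem flagO (h : OF J₀) (hW : Wf (RingHom.id k) 1 (hyp (s + 2) 1 J₀) (s + 2))
    (x : SGr (RingHom.id k) (hyp (s + 2) 1 J₀) 1)
    (l : SGr (RingHom.id k) (hyp (s + 2) 1 J₀) (s + 2)) (hx : Inc x l) :
    ∃ g : EUF (RingHom.id k) 1 (hyp (s + 2) 1 J₀), g • CL.p0 = x ∧ g • CL.m0 = l := by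
  obtain ⟨g, hg, h1, h2⟩ := trans_flag hW.fo p0_in_m0O hx
  exact ⟨⟨g, hg⟩, h1, h2⟩

/-- **ex1** -/
theorem ex1O (hW : Wf (RingHom.id k) 1 (hyp (s + 2) 1 J₀) (s + 2))
    (x : SGr (RingHom.id k) (hyp (s + 2) 1 J₀) 1) :
    ∃ l : SGr (RingHom.id k) (hyp (s + 2) 1 J₀) (s + 2), Inc x l :=
  exists_inc_ge hW.fo (by omega) le_rfl x
    (CL.m0 : SGr (RingHom.id k) (hyp (s + 2) 1 J₀) (s + 2))

/-- **ex2** -/
theorem ex2O (l : SGr (RingHom.id k) (hyp (s + 2) 1 J₀) (s + 2)) :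
    ∃ x : SGr (RingHom.id k) (hyp (s + 2) 1 J₀) 1, Inc x l := exists_inc_le (by omega) l

/-- **fix1** -/
theorem fix1O (h : OF J₀) (hW : Wf (RingHom.id k) 1 (hyp (s + 2) 1 J₀) (s + 2)) {a : k}
    (ha : a ≠ 0) (x : SGr (RingHom.id k) (hyp (s + 2) 1 J₀) 1)
    (l : SGr (RingHom.id k) (hyp (s + 2) 1 J₀) (s + 2)) :
    ∃ g : EUF (RingHom.id k) 1 (hyp (s + 2) 1 J₀), g • CL.p0 = x ∧
      (g * b1O h s ha * g⁻¹) • l = l ∧ ∀ t, (g * u1O h s t * g⁻¹) • l = l := by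
  by_cases hx : Inc x l
  · obtain ⟨g, h1, h2⟩ := flagO h hW x l hx
    refine ⟨g, h1, conj_fixO h2 ?_, fun t => conj_fixO h2 ?_⟩
    · rw [m0_eq]
      exact b1O_cs h ha
    · refine u1O_fix h t (Or.inl ?_)
      rw [m0_eq]
      exact single_mem_cs (A := iL ι (le_refl (s + 2))) 0
  · obtain ⟨g, hg, h1, h2⟩ := trans_nip hW (p0_not_inc (r := s + 1)) hx
    refine ⟨⟨g, hg⟩, ?_, conj_fixO h2 ?_, fun t => conj_fixO h2 ?_⟩
    · rw [p0_eq]
      exact h1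
    · exact b1O_cs h ha
    · refine u1O_fix h t (Or.inr ?_)
      have e : iA ι (s + 1) 1 = .inl (.inl 1) := by
        unfold iA
        rw [if_neg (by simp)]
      refine (mem_cs (σ := RingHom.id k) (J := hyp (s + 1 + 1) 1 J₀)).2 fun i hi => ?_
      exact Pi.single_eq_of_ne (fun h3 => hi 1 (e.trans h3.symm)) _

/-- **fix2** -/
theorem fix2O (h : OF J₀) (hW : Wf (RingHom.id k) 1 (hyp (s + 2) 1 J₀) (s + 2)) {a : k}
    (ha : a ≠ 0) (x : SGr (RingHom.id k) (hyp (s + 2) 1 J₀) 1)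
    (l : SGr (RingHom.id k) (hyp (s + 2) 1 J₀) (s + 2)) :
    ∃ g : EUF (RingHom.id k) 1 (hyp (s + 2) 1 J₀), g • CL.m0 = l ∧
      (g * b2O h s ha * g⁻¹) • x = x ∧ ∀ v, (g * u2O h s v * g⁻¹) • x = x := by
  by_cases hx : Inc x l
  · obtain ⟨g, h1, h2⟩ := flagO h hW x l hx
    refine ⟨g, h2, conj_fixO h1 ?_, fun t => conj_fixO h1 ?_⟩
    · rw [p0_eq]
      exact b2O_cs h ha
    · rw [p0_eq]
      exact u2O_cs h t (fun a ha => by simp [iL] at ha) fun a i ha => by simp [iL] at ha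
  · obtain ⟨g, hg, h1, h2⟩ := trans_nip hW (pn_not_inc (r := s + 1)) hx
    refine ⟨⟨g, hg⟩, ?_, conj_fixO h1 ?_, fun t => conj_fixO h1 ?_⟩
    · rw [m0_eq]
      exact h2
    · exact b2O_cs h ha
    · refine u2O_cs h t (fun a ha => ?_) fun a i ha => ?_
      · unfold iN at ha
        simp at ha
      · unfold iN at ha
        simp at ha

/-- **z_of** -/
theorem z_ofO (hW : Wf (RingHom.id k) 1 (hyp (s + 2) 1 J₀) (s + 2))
    (g : EUF (RingHom.id k) 1 (hyp (s + 2) 1 J₀))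
    (h : ∀ x : SGr (RingHom.id k) (hyp (s + 2) 1 J₀) 1, g • x = x) :
    g ∈ ((scal k (Idx (s + 2) ι)).subgroupOf
      (FormGroup (RingHom.id k) (hyp (s + 2) 1 J₀))).subgroupOf
        (EUF (RingHom.id k) 1 (hyp (s + 2) 1 J₀)) := by
  refine Subgroup.mem_subgroupOf.2 (Subgroup.mem_subgroupOf.2 ?_)
  refine scalar_of_fix hW (by omega) fun v h0 hv => ?_
  have h1 : g.1 • ptv v h0 hv = ptv v h0 hv := h (ptv v h0 hv)
  have h2 := congrArg SGr.S (smul_eq_iff_eq_inv_smul g.1 |>.1 h1)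
  rw [smul_S] at h2
  change Submodule.span k {v} = act (g.1.1⁻¹)⁻¹ (Submodule.span k {v}) at h2
  rw [inv_inv, act_span] at h2
  have h3 : v ᵥ* g.1.1.1 ∈ Submodule.span k {v} := by
    rw [h2]
    exact Submodule.mem_span_singleton_self _
  obtain ⟨a, ha⟩ := Submodule.mem_span_singleton.1 h3
  exact ⟨a, ha.symm⟩

end base

end Vale.Agent.P092.H759.Clo
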