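import Vale.Agent.P092.H370.Cg1

/-!
P092, TEAM P, stage CL-O (helper759), part 1: two different stabilisers of points / of maximal
subspaces generate (`Geo.gen1`, `Geo.gen2`), for every group `G` of isometries which contains the
group `EU` of the Eichler elements, every form of Witt index `r`.
-/

set_option linter.all false

open Matrix Module Set

namespace Vale.Agent.P092.H759.Clo

open Vale.Agent.P092.H303 (FormGroup)
open Vale.Agent.P092.H714.Cl
open Vale.Agent.P092.H714.Sg (Fm)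
open Vale.Agent.P092.H370.Po hiding trans_sing exists_extend exists_inc_ge exists_adj sing_sup_span
  trans_flags exists_prod con2 trans_SGr con exists_step exists_above trans_pair_col trans_flag
  exists_iso_prod ort_comm exists_closer
open Vale.Agent.P092.H370.Fo
open Vale.Agent.P092.H370.Cg

/-- the abstract lemma -/
theorem gen_of {S Y : Type} [Group S] [MulAction S Y] (R : Y → Y → Prop)
    (hR : ∀ a b, Relation.ReflTransGen R a b) (hinv : ∀ (g : S) a b, R a b → R (g • a) (g • b))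
    {x y : Y} (h1 : ∃ g : S, g • y = y ∧ R x (g • x))
    (h2 : ∀ a b, R x a → R x b → ∃ g : S, g • x = x ∧ g • a = b) :
    Subgroup.closure ({g : S | g • x = x} ∪ {g : S | g • y = y}) = ⊤ := by
  set H := Subgroup.closure ({g : S | g • x = x} ∪ {g : S | g • y = y}) with hH
  have hx : ∀ g : S, g • x = x → g ∈ H := fun g hg => Subgroup.subset_closure (Or.inl hg)
  have hy : ∀ g : S, g • y = y → g ∈ H := fun g hg => Subgroup.subset_closure (Or.inr hg)
  obtain ⟨g₀, hg₀, hR₀⟩ := h1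
  have key : ∀ z, Relation.ReflTransGen R x z → ∃ h ∈ H, h • x = z := by
    intro z hz
    induction hz with
    | refl => exact ⟨1, one_mem _, one_smul _ _⟩
    | tail _ hbc ih =>
      obtain ⟨h, hh, rfl⟩ := ih
      have h3 := hinv h⁻¹ _ _ hbc
      rw [inv_smul_smul] at h3
      obtain ⟨p, hp, hpb⟩ := h2 _ _ hR₀ h3
      refine ⟨h * p * g₀, mul_mem (mul_mem hh (hx p hp)) (hy g₀ hg₀), ?_⟩
      rw [mul_smul, mul_smul, hpb, smul_inv_smul]
  rw [eq_top_iff]
  intro g _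
  obtain ⟨h, hh, he⟩ := key (g • x) (hR _ _)
  have h4 : h⁻¹ * g ∈ H := hx _ (by rw [mul_smul, ← he, inv_smul_smul])
  have h5 := mul_mem hh h4
  rwa [mul_inv_cancel_left] at h5

variable {n : Type} [Fintype n] [DecidableEq n] {k : Type} [Field k]
  {σ : k →+* k} {ε : k} {J : Matrix n n k}

/-- an element of `EU` acts by rows -/
theorem exists_smul (hF : Fm σ ε J) {g : SpecialLinearGroup n k} (hg : g ∈ EU σ ε J) :
    ∃ h : FormGroup σ J, h.1 ∈ EU σ ε J ∧ ∀ {j : ℕ} (X : SGr σ J j), (h • X).S = act g X.S := by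
  refine ⟨⟨g⁻¹, inv_mem (EU_le hF hg)⟩, inv_mem hg, fun {j} X => ?_⟩
  rw [smul_S]
  change act (g⁻¹)⁻¹ X.S = _
  rw [inv_inv]

/-- **the move of opposite vectors** -/
theorem opp_move (hF : Fm σ ε J) {u a b : n → k} (hu : hf σ J u u = 0) (ha : hf σ J a a = 0)
    (hb : hf σ J b b = 0) (h1 : hf σ J u a ≠ 0) (h2 : hf σ J u b ≠ 0) :
    ∃ g ∈ EU σ ε J, u ᵥ* g.1 = u ∧ (∃ c : k, c ≠ 0 ∧ a ᵥ* g.1 = c • b) ∧
      (∀ x, hf σ J x u = 0 → ∃ d : k, x ᵥ* g.1 = x - d • u) ∧
      ∀ x, hf σ J x u = 0 → hf σ J x a = 0 → hf σ J x b = 0 → x ᵥ* g.1 = x := by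
  have n1 : ∀ z, hf σ J u z ≠ 0 → hf σ J u (σ (hf σ J u z)⁻¹ • z) = 1 := fun z hz => by
    rw [hf_smul_right, hF.inv, inv_mul_cancel₀ hz]
  have n0 : ∀ z, hf σ J u z ≠ 0 → σ (hf σ J u z)⁻¹ ≠ 0 := fun z hz => by
    rw [Ne, map_eq_zero]
    exact inv_ne_zero hz
  obtain ⟨g, hg, g1, g2, g3⟩ := dual_move' hF hu (iso_smul ha _) (iso_smul hb _) (n1 a h1)
    (n1 b h2)
  refine ⟨g, hg, g1, ⟨(σ (hf σ J u a)⁻¹)⁻¹ * σ (hf σ J u b)⁻¹,
    mul_ne_zero (inv_ne_zero (n0 a h1)) (n0 b h2), ?_⟩, fun x hx => ⟨_, g3 x hx⟩,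
    fun x hx hxa hxb => ?_⟩
  · rw [smul_vecMul] at g2
    rw [mul_smul, ← g2, smul_smul, inv_mul_cancel₀ (n0 a h1), one_smul]
  · rw [g3 x hx, hf_sub_right, hf_smul_right, hf_smul_right, hxa, hxb, mul_zero, mul_zero,
      sub_self, zero_smul, sub_zero]

theorem act_ptv (hF : Fm σ ε J) {g : SpecialLinearGroup n k} {v w : n → k} {c : k} (hc : c ≠ 0)
    (h : v ᵥ* g.1 = c • w) : act g (Submodule.span k {v}) = Submodule.span k {w} := by
  rw [act_span, h]
  exact Submodule.span_singleton_smul_eq (IsUnit.mk0 c hc) w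

/-! ### Points -/

theorem sing_bot' : Sing σ J (⊥ : Submodule k (n → k)) := by
  intro x hx y hy
  rw [(Submodule.mem_bot k).1 hx, hf_zero_left]

theorem sing_span {v : n → k} (h : hf σ J v v = 0) : Sing σ J (Submodule.span k {v}) := by
  unfold Sing
  rw [ort_span_left]
  intro y hy
  obtain ⟨a, rfl⟩ := Submodule.mem_span_singleton.1 hy
  rw [hf_smul_right, h, mul_zero]

/-- two isotropic vectors have a common opposite one -/
theorem common_opp (hF : Fo σ ε J) {u w : n → k} (hu0 : u ≠ 0) (hw0 : w ≠ 0)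
    (hu : hf σ J u u = 0) (hw : hf σ J w w = 0) (huw : hf σ J u w = 0) :
    ∃ p, hf σ J p p = 0 ∧ hf σ J u p ≠ 0 ∧ hf σ J p w ≠ 0 := by
  have s1 : Sing σ J (Submodule.span k {u} ⊔ Submodule.span k {w}) :=
    sing_sup_span hF (sing_span hu) hw fun x hx => by
      obtain ⟨a, rfl⟩ := Submodule.mem_span_singleton.1 hx
      rw [hf_smul_left, huw, mul_zero]
  have hu1 : u ∈ Submodule.span k {u} ⊔ Submodule.span k {w} :=
    Submodule.mem_sup_left (Submodule.mem_span_singleton_self u)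
  have hw1 : w ∈ Submodule.span k {u} ⊔ Submodule.span k {w} :=
    Submodule.mem_sup_right (Submodule.mem_span_singleton_self w)
  obtain ⟨φ, h1, h2, -⟩ := exists_functional₂ (Z := ⊥) bot_le hu1 hw1
    (fun h => hu0 ((Submodule.mem_bot k).1 h)) (fun h => hw0 ((Submodule.mem_bot k).1 h))
  obtain ⟨z, hz, hzφ⟩ := exists_iso_prod hF s1 φ (fun h => h1 (by rw [h]; rfl))
  refine ⟨z, hz, ?_, Fm.symm_ne0 hF.fm ?_⟩
  · have := hzφ ⟨u, hu1⟩
    rw [this]; exact h1
  · have := hzφ ⟨w, hw1⟩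
    rw [this]; exact h2

theorem opp_conn (hF : Fo σ ε J) (a b : SGr σ J 1) :
    Relation.ReflTransGen (fun x y : SGr σ J 1 => ¬ Col x y) a b := by
  by_cases h : Col a b
  · obtain ⟨u, hu0, hu, rfl⟩ := exists_ptv a
    obtain ⟨w, hw0, hw, rfl⟩ := exists_ptv b
    rw [col_ptv] at h
    obtain ⟨p, hp, h1, h2⟩ := common_opp hF hu0 hw0 hu hw h
    have hp0 : p ≠ 0 := by
      rintro rfl
      exact h1 (hf_zero_right _ _ _)
    exact (Relation.ReflTransGen.single (b := ptv p hp0 hp)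
      (fun hc => h1 ((col_ptv _ _ _ _).1 hc))).tail fun hc => h2 ((col_ptv _ _ _ _).1 hc)
  · exact Relation.ReflTransGen.single h

/-- **two different stabilisers of points generate** -/
theorem gen1 (hF : Fo σ ε J) (G : Subgroup (FormGroup σ J))
    (hG : ∀ g : FormGroup σ J, g.1 ∈ EU σ ε J → g ∈ G) {x y : SGr σ J 1} (hne : x ≠ y) :
    Subgroup.closure ({g : G | g • x = x} ∪ {g : G | g • y = y}) = ⊤ := by
  obtain ⟨u, hu0, hu, rfl⟩ := exists_ptv x
  obtain ⟨w, hw0, hw, rfl⟩ := exists_ptv y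
  refine gen_of (fun x y : SGr σ J 1 => ¬ Col x y) (opp_conn hF)
    (fun g a b h hc => h ((col_smul g.1).1 hc)) ?_ ?_
  · -- an element which fixes `y` and moves `x` to an opposite point
    obtain ⟨g, hg, p, h1, c, hc, h2, h3⟩ : ∃ g ∈ EU σ ε J, ∃ p : n → k, hf σ J u p ≠ 0 ∧
        ∃ c : k, c ≠ 0 ∧ u ᵥ* g.1 = c • p ∧ w ᵥ* g.1 = w := by
      by_cases huw : hf σ J u w = 0
      · have hux : u ∉ Submodule.span k {w} := fun h => hne ((ptv_eq _ _ _ _).2 h)
        have hwu : ∀ y ∈ Submodule.span k {w}, hf σ J y u = 0 := by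
          intro y hy
          obtain ⟨a, rfl⟩ := Submodule.mem_span_singleton.1 hy
          rw [hf_smul_left, hF.fm.symm0 huw, mul_zero]
        obtain ⟨q, hq, huq, hwq⟩ := hF.fm.partner (Y := Submodule.span k {w}) hu hux hwu
        obtain ⟨g, hg, c, hc, h1, h2⟩ := step_to hF (sing_span hw) hu hq hwu hwq
          (by rw [huq]; exact one_ne_zero)
        exact ⟨g, hg, q, by rw [huq]; exact one_ne_zero, c, hc, h1,
          h2 w (Submodule.mem_span_singleton_self w)⟩
      · obtain ⟨p, hp, -, h1, h2⟩ := hF.thd ⊥ u w sing_bot' hu hw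
          (fun x hx => by rw [(Submodule.mem_bot k).1 hx, hf_zero_left])
          (fun x hx => by rw [(Submodule.mem_bot k).1 hx, hf_zero_left]) huw
        obtain ⟨g, hg, h3, ⟨c, hc, h4⟩, -, -⟩ := opp_move hF.fm hw hu hp
          (Fm.symm_ne0 hF.fm huw) (Fm.symm_ne0 hF.fm h2)
        exact ⟨g, hg, p, h1, c, hc, h4, h3⟩
    obtain ⟨h, hhE, hh⟩ := exists_smul hF.fm hg
    refine ⟨⟨h, hG h hhE⟩, ?_, fun hcol => h1 ?_⟩
    · refine SGr.ext ?_
      change (h • ptv w hw0 hw).S = _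
      rw [hh, ptv_S, act_span, h3]
    · have e1 : (h • ptv u hu0 hu).S = Submodule.span k {p} := by
        rw [hh, ptv_S]
        exact act_ptv hF.fm hc h2
      have e2 : Col (ptv u hu0 hu) (h • ptv u hu0 hu) := hcol
      refine e2 u (Submodule.mem_span_singleton_self u) p ?_
      rw [e1]
      exact Submodule.mem_span_singleton_self p
  · intro a b ha hb
    obtain ⟨v, hv0, hv, rfl⟩ := exists_ptv a
    obtain ⟨z, hz0, hz, rfl⟩ := exists_ptv b
    rw [col_ptv] at ha hb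
    obtain ⟨g, hg, h3, ⟨c, hc, h4⟩, -, -⟩ := opp_move hF.fm hu hv hz ha hb
    obtain ⟨h, hhE, hh⟩ := exists_smul hF.fm hg
    refine ⟨⟨h, hG h hhE⟩, SGr.ext ?_, SGr.ext ?_⟩
    · change (h • ptv u hu0 hu).S = _
      rw [hh, ptv_S, act_span, h3]
    · change (h • ptv v hv0 hv).S = _
      rw [hh, ptv_S, ptv_S]
      exact act_ptv hF.fm hc h4

/-! ### Maximal subspaces -/

/-- adjacent maximal subspaces are generated by non orthogonal vectors -/
theorem not_orth {m : ℕ} (hF : Wf σ ε J (m + 1)) {x a : SGr σ J (m + 1)} {X : SGr σ J m}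
    {u v : n → k} (hX : Inc X a) (hne : x ≠ a) (hx : x.S = X.S ⊔ Submodule.span k {u})
    (ha : a.S = X.S ⊔ Submodule.span k {v}) : hf σ J u v ≠ 0 := by
  intro huv
  have hva : v ∈ a.S := by
    rw [ha]
    exact Submodule.mem_sup_right (Submodule.mem_span_singleton_self v)
  have hvx : v ∉ x.S := by
    intro h
    apply hne
    refine (SGr.eq_of_le ?_).symm
    rw [ha]
    refine sup_le ?_ ((Submodule.span_singleton_le_iff_mem _ _).2 h)
    rw [hx]
    exact le_sup_left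
  obtain ⟨z, hz, hvz⟩ := exists_not_orth hF (a.sing v hva v hva) hvx
  rw [hx] at hz
  obtain ⟨y, hy, t, ht, rfl⟩ := Submodule.mem_sup.1 hz
  obtain ⟨c, rfl⟩ := Submodule.mem_span_singleton.1 ht
  rw [hf_add_right, hf_smul_right, a.sing v hva y (hX hy), hF.fm.symm0 huv, mul_zero,
    add_zero] at hvz
  exact zero_ne_one hvz

/-- **two different stabilisers of maximal subspaces generate** -/
theorem gen2 {m : ℕ} (hF : Wf σ ε J (m + 1)) (G : Subgroup (FormGroup σ J))
    (hG : ∀ g : FormGroup σ J, g.1 ∈ EU σ ε J → g ∈ G) {x y : SGr σ J (m + 1)} (hne : x ≠ y) :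
    Subgroup.closure ({g : G | g • x = x} ∪ {g : G | g • y = y}) = ⊤ := by
  refine gen_of (fun a b : SGr σ J (m + 1) => a ≠ b ∧ ∃ X : SGr σ J m, Inc X a ∧ Inc X b) ?_ ?_
    ?_ ?_
  · intro a b
    have h := con2 hF.fo a b
    induction h with
    | refl => exact Relation.ReflTransGen.refl
    | tail _ h1 ih =>
      rename_i b c _
      by_cases hbc : b = c
      · rw [← hbc]; exact ih
      · exact ih.tail ⟨hbc, h1⟩
  · rintro g a b ⟨h1, X, h2, h3⟩
    exact ⟨fun h => h1 (MulAction.injective g h), g.1 • X, (inc_smul g.1).2 h2,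
      (inc_smul g.1).2 h3⟩
  · -- `q ∈ y`, not in `x`
    have hyx : ¬ y.S ≤ x.S := fun h => hne (SGr.eq_of_le h).symm
    obtain ⟨q, hqy, hqx⟩ := SetLike.not_le_iff_exists.1 hyx
    have hq := y.sing q hqy q hqy
    obtain ⟨a, hax, hqa⟩ := exists_not_orth hF hq hqx
    have hqa' : hf σ J q a ≠ 0 := by rw [hqa]; exact one_ne_zero
    have ha := x.sing a hax a hax
    obtain ⟨hd, hx⟩ := finrank_inf_perp hF.fm hax hqa'
    set H := x.S ⊓ perp σ J (Submodule.span k {q}) with hH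
    have hHs : Sing σ J H := x.sing.mono inf_le_left
    have hHq : ∀ z ∈ H, hf σ J z q = 0 := fun z hz => hF.fm.symm0 (mem_perp_span.1 hz.2)
    have hHa : ∀ z ∈ H, hf σ J z a = 0 := fun z hz => x.sing z hz.1 a hax
    obtain ⟨p, hp, hHp, hap, hpq⟩ := hF.fo.thd H a q hHs ha hq hHa hHq
      (Fm.symm_ne0 hF.fm hqa')
    obtain ⟨g, hg, h1, ⟨c, hc, h2⟩, h3, h4⟩ := opp_move hF.fm hq ha hp hqa'
      (Fm.symm_ne0 hF.fm hpq)
    obtain ⟨h, hhE, hh⟩ := exists_smul hF.fm hg
    have hfix : act g H = H := act_of_fix fun z hz => h4 z (hHq z hz) (hHa z hz) (hHp z hz)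
    have e1 : (h • x).S = H ⊔ Submodule.span k {p} := by
      rw [hh]
      conv_lhs => rw [hx]
      rw [act_sup, hfix, act_ptv hF.fm hc h2]
    refine ⟨⟨h, hG h hhE⟩, ?_, ?_, SGr.mk' H hHs (by rw [x.dim] at hd; omega), ?_, ?_⟩
    · change h • y = y
      refine SGr.eq_of_le ?_
      rw [hh]
      intro z hz
      obtain ⟨t, ht, rfl⟩ := mem_act.1 hz
      obtain ⟨d, hd⟩ := h3 t (y.sing t ht q hqy)
      rw [hd]
      exact y.S.sub_mem ht (y.S.smul_mem _ hqy)
    · intro he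
      apply hap
      have he' : x = h • x := he
      have hpx : p ∈ x.S := by
        rw [he', e1]
        exact Submodule.mem_sup_right (Submodule.mem_span_singleton_self p)
      exact x.sing a hax p hpx
    · exact inf_le_left
    · change H ≤ (h • x).S
      rw [e1]
      exact le_sup_left
  · rintro a b ⟨hxa, X₁, h1, h2⟩ ⟨hxb, X, h3, h4⟩
    obtain ⟨g₁, hg₁, h5, h6⟩ := trans_flag hF.fo h1 h3
    obtain ⟨a₁, ha₁⟩ : ∃ a₁, a₁ = g₁ • a := ⟨_, rfl⟩
    have i1 : Inc X a₁ := by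
      rw [ha₁, ← h5]
      exact (inc_smul g₁).2 h2
    have n1 : x ≠ a₁ := by
      intro h
      apply hxa
      rw [ha₁, ← h6] at h
      exact MulAction.injective g₁ h
    obtain ⟨u, hu, hxu⟩ := exists_gen h3 X.dim x.dim
    obtain ⟨v, hv, hav⟩ := exists_gen i1 X.dim a₁.dim
    obtain ⟨w, hw, hbw⟩ := exists_gen h4 X.dim b.dim
    have mu : u ∈ x.S := by
      rw [hxu]; exact Submodule.mem_sup_right (Submodule.mem_span_singleton_self u)
    have mv : v ∈ a₁.S := by
      rw [hav]; exact Submodule.mem_sup_right (Submodule.mem_span_singleton_self v)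
    have mw : w ∈ b.S := by
      rw [hbw]; exact Submodule.mem_sup_right (Submodule.mem_span_singleton_self w)
    obtain ⟨g, hg, g1, ⟨c, hc, g2⟩, -, g4⟩ := opp_move hF.fm (x.sing u mu u mu)
      (a₁.sing v mv v mv) (b.sing w mw w mw) (not_orth hF i1 n1 hxu hav)
      (not_orth hF h4 hxb hxu hbw)
    have hfix : act g X.S = X.S := act_of_fix fun z hz =>
      g4 z (x.sing z (h3 hz) u mu) (a₁.sing z (i1 hz) v mv) (b.sing z (h4 hz) w mw)
    obtain ⟨h, hhE, hh⟩ := exists_smul hF.fm hg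
    refine ⟨⟨h, hG h hhE⟩ * ⟨g₁, hG g₁ hg₁⟩, ?_, ?_⟩
    · rw [mul_smul]
      change h • (g₁ • x) = x
      rw [h6]
      refine SGr.ext ?_
      rw [hh]
      conv_lhs => rw [hxu]
      rw [act_sup, hfix, act_span, g1, hxu]
    · rw [mul_smul]
      change h • (g₁ • a) = b
      rw [← ha₁]
      refine SGr.ext ?_
      rw [hh]
      conv_lhs => rw [hav]
      rw [act_sup, hfix, act_ptv hF.fm hc g2, hbw]

end Vale.Agent.P092.H759.Clo
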